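import Vale.Agent.P347.Separable

/-! # P347: block-separable well-conditioned targets need polylogarithmically many queries. -/

namespace Vale.Agent.Results.P347.BlockSeparable

open MeasureTheory Real
open Vale.Agent.P347

theorem result :
    ∃ C : ℝ, 0 < C ∧ ∀ b k : ℕ, 1 ≤ b → 1 ≤ k →
      ∃ q : ℕ, (q : ℝ) ≤ C * (√2) ^ k * ((k : ℝ) + Real.log b + 1) ^ 2 ∧
        ∃ (Ω : Type) (_ : MeasurableSpace Ω) (P : Measure Ω) (_ : IsProbabilityMeasure P)
          (query : Fin q → Ω → (Fin b → Fin k → ℝ))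
          (out : Ω × (Fin q → Fin b → Fin k → ℝ) → (Fin b → Fin k → ℝ)),
          (∀ m, Measurable (query m)) ∧ Measurable out ∧
          ∀ V : (Fin b → Fin k → ℝ) → ℝ, ContDiff ℝ 2 V → V 0 = 0 → fderiv ℝ V 0 = 0 →
            (∀ x v, ∑ i, ∑ l, v i l ^ 2 ≤ iteratedFDeriv ℝ 2 V x ![v, v] ∧
              iteratedFDeriv ℝ 2 V x ![v, v] ≤ 2 * ∑ i, ∑ l, v i l ^ 2) →
            (∃ f : Fin b → (Fin k → ℝ) → ℝ, ∀ x, V x = ∑ i, f i (x i)) →
            ∀ B : Set (Fin b → Fin k → ℝ), MeasurableSet B →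
              |(P.map fun ω => out (ω, fun m i l =>
                    fderiv ℝ V (query m ω) (Pi.single i (Pi.single l 1)))).real B -
                (∫ x in B, Real.exp (-V x)) / ∫ x, Real.exp (-V x)| ≤ 1 / 10 := by
  refine ⟨1764, by norm_num, fun b k hb hk => ?_⟩
  set n := Nat.log 2 b with hn
  set ℓ : ℕ := k + n + 6 with hℓ
  set c : NNReal := 4 * (ℓ : NNReal) with hc
  set M : ℕ := 12 * ℓ with hM
  set A : ℕ := ⌈2 * (ℓ : ℝ) * (√2) ^ k⌉₊ with hA
  have hcR : (c : ℝ) = 4 * (ℓ : ℝ) := by simp [hc]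
  have hℓ1 : (1 : ℝ) ≤ ℓ := by exact_mod_cast (show 1 ≤ ℓ by omega)
  have hcpos : 0 < c := NNReal.coe_pos.1 (by rw [hcR]; linarith)
  refine ⟨A * M, ?_, Fin b → Fin A → Att k M, inferInstance,
    Measure.pi fun _ : Fin b => Measure.pi fun _ : Fin A => attLaw k M c, inferInstance,
    fun m ω i => ((ω i (finProdFinEquiv.symm m).1).2.2 (finProdFinEquiv.symm m).2).1 •
      (ω i (finProdFinEquiv.symm m).1).1,
    fun p i => pick (fun a => Accv c (p.1 i a) fun j =>
        ((∑ l, p.2 (finProdFinEquiv (a, j)) i l * (p.1 i a).1 l) -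
          ((p.1 i a).2.2 j).1 * sqn (p.1 i a).1) / c)
      (fun a => (p.1 i a).1), ?_, ?_, ?_⟩
  · have h2R : (1:ℝ) ≤ (√2) ^ k := one_le_pow₀ (Real.one_le_sqrt.2 (by norm_num))
    have hA' : (A : ℝ) ≤ 3 * ℓ * (√2) ^ k := by
      have h := Nat.ceil_lt_add_one (show (0:ℝ) ≤ 2 * (ℓ : ℝ) * (√2) ^ k by positivity)
      rw [← hA] at h
      nlinarith
    have hlogb : 0 ≤ Real.log b := Real.log_nonneg (by exact_mod_cast hb)
    have hn2 : (n : ℝ) ≤ 2 * Real.log b := by
      have h1 : ((2:ℝ)) ^ n ≤ b := by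
        exact_mod_cast Nat.pow_log_le_self 2 (by omega : b ≠ 0)
      have h2 := Real.log_le_log (by positivity) h1
      rw [Real.log_pow] at h2
      nlinarith [Real.log_two_gt_d9, Nat.cast_nonneg (α := ℝ) n]
    have hℓ7 : (ℓ : ℝ) ≤ 7 * ((k:ℝ) + Real.log b + 1) := by
      rw [hℓ]; push_cast; linarith [Nat.cast_nonneg (α := ℝ) k]
    calc ((A * M : ℕ) : ℝ) = (A:ℝ) * (12 * ℓ) := by rw [hM]; push_cast; ring
      _ ≤ 3 * ℓ * (√2) ^ k * (12 * ℓ) := by gcongr
      _ = 36 * (√2) ^ k * (ℓ:ℝ) ^ 2 := by ring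
      _ ≤ 36 * (√2) ^ k * (7 * ((k:ℝ) + Real.log b + 1)) ^ 2 := by gcongr
      _ = _ := by ring
  · intro m
    refine measurable_pi_lambda _ fun i => ?_
    have h : Measurable fun ω : Fin b → Fin A → Att k M => ω i (finProdFinEquiv.symm m).1 :=
      (measurable_pi_apply _).comp (measurable_pi_apply i)
    exact ((measurable_pi_apply _).comp h.snd.snd).fst.smul h.fst
  · refine measurable_pi_lambda _ fun i => measurable_pick (fun a => ?_) fun a => ?_
    · have h : Measurable fun p : (Fin b → Fin A → Att k M) ×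
          (Fin (A * M) → Fin b → Fin k → ℝ) => p.1 i a :=
        (measurable_pi_apply a).comp ((measurable_pi_apply i).comp measurable_fst)
      refine measurableSet_accv c h fun j => ((Finset.measurable_sum _ fun l _ => ?_).sub
        (((measurable_pi_apply j).comp h.snd.snd).fst.mul
          (continuous_sqn.measurable.comp h.fst))).div_const _
      exact ((measurable_pi_apply l).comp ((measurable_pi_apply i).comp
        ((measurable_pi_apply _).comp measurable_snd))).mul ((measurable_pi_apply l).comp h.fst)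
    · exact ((measurable_pi_apply a).comp ((measurable_pi_apply i).comp measurable_fst)).fst
  intro V hV h0 hd0 hH hsep B hB
  obtain ⟨f, hf⟩ := hsep
  have hsum := sum_single_eq f hf h0
  have hdiff : Differentiable ℝ V := hV.differentiable (by norm_num)
  set F : Fin b → (Fin A → Att k M) → (Fin k → ℝ) := fun i w =>
    pick (fun a => w a ∈ AccSet c (blockSlope V i)) (fun a => (w a).1) with hF
  have hFm : ∀ i, Measurable (F i) := fun i =>
    measurable_pick (fun a => measurable_pi_apply a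
      (measurableSet_acc c (measurable_blockSlope hV i))) fun a => (measurable_pi_apply a).fst
  have hexp : ∀ j : ℕ, (2:ℝ) ^ j ≤ Real.exp j := by
    intro j
    rw [← mul_one (j:ℝ), Real.exp_nat_mul]
    exact pow_le_pow_left₀ (by norm_num) (by linarith [Real.add_one_le_exp (1:ℝ)]) j
  have hbud : (b:ℝ) * (3 * (2:ℝ) ^ k * Real.exp (-(ℓ:ℝ))) ≤ 1 / 10 := by
    have hb2 : (b:ℝ) ≤ 2 * 2 ^ n := by
      have := Nat.lt_pow_succ_log_self (by norm_num : 1 < 2) b
      rw [pow_succ] at this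
      calc (b:ℝ) ≤ ((2 ^ n * 2 : ℕ) : ℝ) := by exact_mod_cast this.le
        _ = 2 * 2 ^ n := by push_cast; ring
    have he : Real.exp (ℓ:ℝ) = Real.exp k * Real.exp n * Real.exp (6:ℕ) := by
      rw [← Real.exp_add, ← Real.exp_add, hℓ]; push_cast; ring_nf
    have h64 : (2:ℝ) ^ 6 * ((2:ℝ) ^ k * (2:ℝ) ^ n) ≤ Real.exp (ℓ:ℝ) := by
      rw [he]
      calc (2:ℝ) ^ 6 * ((2:ℝ) ^ k * (2:ℝ) ^ n)
            ≤ Real.exp (6:ℕ) * (Real.exp k * Real.exp n) := by
              gcongr
              · exact hexp 6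
              · exact hexp k
              · exact hexp n
        _ = _ := by ring
    rw [Real.exp_neg, show (b:ℝ) * (3 * (2:ℝ) ^ k * (Real.exp (ℓ:ℝ))⁻¹) =
      (b:ℝ) * 3 * (2:ℝ) ^ k / Real.exp (ℓ:ℝ) by ring, div_le_iff₀ (Real.exp_pos _)]
    nlinarith [pow_pos (show (0:ℝ) < 2 by norm_num) k, mul_le_mul_of_nonneg_right hb2
      (pow_nonneg (show (0:ℝ) ≤ 2 by norm_num) k)]
  have hℓsmall : 4 * (2:ℝ) ^ k * Real.exp (-(ℓ:ℝ)) ≤ 1 := by
    have hb1 : (1:ℝ) ≤ b := by exact_mod_cast hb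
    have hp : 0 ≤ 3 * (2:ℝ) ^ k * Real.exp (-(ℓ:ℝ)) := by positivity
    nlinarith
  have hblock := fun i => block_minorant (A := A) (M := M) (c := c) (ℓ := (ℓ:ℝ)) hcpos
    (by rw [hcR]) (by rw [hcR, hM]; push_cast; linarith) (Nat.le_ceil _) hℓsmall
    (measurable_blockSlope hV i) (fun z => continuous_slope0 hV _ _)
    (blockSlope_bounds hV hd0 hH i) (blockSlope_integral hV h0 i)
    (measurable_blockExcess hV i) (fun z => (blockExcess_bounds hV hd0 h0 hH i z).1)
    (fun z => (blockExcess_bounds hV hd0 h0 hH i z).2)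
  have hT : ∀ i, IsProbabilityMeasure (blockTarget (blockExcess V i)) := fun i => (hblock i).1
  have hL : ∀ i, IsProbabilityMeasure (blockLaw A M c (blockSlope V i)) := fun i => (hblock i).2.1
  choose ρ hρL hρT hρm using fun i => (hblock i).2.2
  have hρf : ∀ i, IsFiniteMeasure (ρ i) := fun i => isFiniteMeasure_of_le _ (hρT i)
  have hmap : ∀ i, (Measure.pi fun _ : Fin A => attLaw k M c).map (F i) =
      blockLaw A M c (blockSlope V i) := fun i => rfl
  have hsf : ∀ i, SigmaFinite ((Measure.pi fun _ : Fin A => attLaw k M c).map (F i)) := fun i => by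
    rw [hmap i]; infer_instance
  have hfun : ∀ ω : Fin b → Fin A → Att k M, ∀ i a,
      (Accv c (ω i a) fun j =>
        ((∑ l, fderiv ℝ V (fun i' =>
            ((ω i' (finProdFinEquiv.symm (finProdFinEquiv (a, j))).1).2.2
              (finProdFinEquiv.symm (finProdFinEquiv (a, j))).2).1 •
              (ω i' (finProdFinEquiv.symm (finProdFinEquiv (a, j))).1).1)
            (Pi.single i (Pi.single l 1)) * (ω i a).1 l) -
          ((ω i a).2.2 j).1 * sqn (ω i a).1) / c) ↔ ω i a ∈ AccSet c (blockSlope V i) := by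
    intro ω i a
    simp only [AccSet, Set.mem_ofPred_eq, blockSlope, slope0, grad_inner, Equiv.symm_apply_apply]
    refine iff_of_eq (congrArg (Accv c (ω i a)) (funext fun j => ?_))
    rw [fderiv_block hdiff hsum, Pi.single_smul]
  simp only [hfun]
  rw [show (fun ω : Fin b → Fin A → Att k M => fun i => pick
      (fun a => ω i a ∈ AccSet c (blockSlope V i)) fun a => (ω i a).1) =
      fun ω i => F i (ω i) from rfl,
    Measure.pi_map_pi (fun i => (hFm i).aemeasurable), ← target_eq hV hd0 h0 hH hsum hB]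
  simp_rw [hmap]
  refine le_trans (abs_real_sub_le _ _ (Measure.pi ρ) (pi_le_pi hρL) (pi_le_pi hρT) hB) ?_
  set e := 3 * (2:ℝ) ^ k * Real.exp (-(ℓ:ℝ)) with he
  have he0 : 0 ≤ e := by positivity
  have he1 : e ≤ 1 := by nlinarith [show (1:ℝ) ≤ b by exact_mod_cast hb]
  have hb' : 1 - (b:ℝ) * e ≤ ∏ i, (ρ i).real Set.univ := by
    calc 1 - (b:ℝ) * e ≤ (1 + -e) ^ b := by
          have := one_add_mul_le_pow (a := -e) (by linarith) b
          linarith
      _ = ∏ _i : Fin b, (1 - e) := by rw [Finset.prod_const, Finset.card_univ, Fintype.card_fin]; ring_nf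
      _ ≤ _ := Finset.prod_le_prod (fun i _ => by linarith) fun i _ => hρm i
  have hu : (Measure.pi ρ).real Set.univ = ∏ i, (ρ i).real Set.univ := by
    simp only [measureReal_def, Measure.pi_univ, ENNReal.toReal_prod]
  linarith

end Vale.Agent.Results.P347.BlockSeparable
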