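import Vale.Agent.P347.Shift.Final
import Vale.Agent.P347.Shift.WhiteAll

/-! # P347: `d ^ δ` first order queries suffice for every `δ > 0`, so the dimension exponent is `0`. -/

namespace Vale.Agent.Results.P347.GammaZero

open MeasureTheory Real
open Vale.Agent.P347.Shift

theorem result :
    ∀ δ : ℝ, 0 < δ → ∃ d₀ : ℕ, ∀ d : ℕ, d₀ ≤ d → ∃ q : ℕ, (q : ℝ) ≤ (d : ℝ) ^ δ ∧
      ∃ (Ω : Type) (_ : MeasurableSpace Ω) (P : Measure Ω) (_ : IsProbabilityMeasure P)
        (query : (m : Fin q) → Ω → (Fin m → ℝ × EuclideanSpace ℝ (Fin d)) →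
          EuclideanSpace ℝ (Fin d))
        (out : Ω → (Fin q → ℝ × EuclideanSpace ℝ (Fin d)) → EuclideanSpace ℝ (Fin d)),
        (∀ m, Measurable (Function.uncurry (query m))) ∧ Measurable (Function.uncurry out) ∧
        ∀ V : EuclideanSpace ℝ (Fin d) → ℝ, ContDiff ℝ 2 V → V 0 = 0 → gradient V 0 = 0 →
          (∀ x v, ‖v‖ ^ 2 ≤ iteratedFDeriv ℝ 2 V x ![v, v] ∧
            iteratedFDeriv ℝ 2 V x ![v, v] ≤ 2 * ‖v‖ ^ 2) →
          ∃ tr : Ω → Fin q → ℝ × EuclideanSpace ℝ (Fin d), Measurable tr ∧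
            (∀ ω m, tr ω m =
              (V (query m ω fun j => tr ω (Fin.castLE m.isLt.le j)),
                gradient V (query m ω fun j => tr ω (Fin.castLE m.isLt.le j)))) ∧
            ∀ B : Set (EuclideanSpace ℝ (Fin d)), MeasurableSet B →
              |(P.map fun ω => out ω (tr ω)).real B -
                  (∫ x in B, exp (-V x)) / ∫ x, exp (-V x)| ≤ 1 / 10 :=
  transcript_of_spec white_all

end Vale.Agent.Results.P347.GammaZero
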